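import Mathlib.Analysis.Complex.AbsMax
import Mathlib.Analysis.SpecialFunctions.Pow.Deriv
import Mathlib.Analysis.SpecialFunctions.Pow.Continuity

/-!
# Three lines for sums of small powers of moduli of entire functions
-/

open Set Filter Topology

namespace Vale.Agent.N141X

/-- near a local maximum the sum is constant -/
theorem loc_const {ι : Type*} (s : Finset ι) {Φ : ι → ℂ → ℂ} (hΦ : ∀ x, Differentiable ℂ (Φ x))
    {ρ : ℝ} (hρ : 0 < ρ) {c : ℂ} (hc : IsLocalMax (fun z => ∑ x ∈ s, ‖Φ x z‖ ^ ρ) c) :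
    ∀ᶠ z in 𝓝 c, ∑ x ∈ s, ‖Φ x c‖ ^ ρ ≤ ∑ x ∈ s, ‖Φ x z‖ ^ ρ := by
  set g : ℂ → ℂ := fun z => ∑ x ∈ s, ((‖Φ x c‖ ^ ρ : ℝ) : ℂ) * (Φ x z / Φ x c) ^ (ρ : ℂ) with hg
  have le : ∀ z, ‖g z‖ ≤ ∑ x ∈ s, ‖Φ x z‖ ^ ρ := fun z =>
    (norm_sum_le _ _).trans (Finset.sum_le_sum fun x _ => by
      by_cases h : Φ x c = 0
      · simp only [h, norm_zero, Real.zero_rpow hρ.ne', Complex.ofReal_zero, zero_mul]
        positivity
      · rw [norm_mul, Complex.norm_cpow_real, Complex.norm_real, Real.norm_of_nonneg (by positivity),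
          norm_div, Real.div_rpow (norm_nonneg _) (norm_nonneg _), mul_div_cancel₀ _
            (Real.rpow_pos_of_pos (norm_pos_iff.2 h) _).ne'])
  have eq : ‖g c‖ = ∑ x ∈ s, ‖Φ x c‖ ^ ρ := by
    have : g c = ((∑ x ∈ s, ‖Φ x c‖ ^ ρ : ℝ) : ℂ) := by
      rw [Complex.ofReal_sum]
      refine Finset.sum_congr rfl fun x _ => ?_
      by_cases h : Φ x c = 0
      · simp only [h, norm_zero, Real.zero_rpow hρ.ne', Complex.ofReal_zero, zero_mul]
      · rw [div_self h, Complex.one_cpow, mul_one]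
    rw [this, Complex.norm_real, Real.norm_of_nonneg (Finset.sum_nonneg fun _ _ => by positivity)]
  have hd : ∀ᶠ z in 𝓝 c, DifferentiableAt ℂ g z := by
    have : ∀ x ∈ s, ∀ᶠ z in 𝓝 c, DifferentiableAt ℂ
        (fun z => ((‖Φ x c‖ ^ ρ : ℝ) : ℂ) * (Φ x z / Φ x c) ^ (ρ : ℂ)) z := by
      intro x _
      by_cases h : Φ x c = 0
      · simp only [h, norm_zero, Real.zero_rpow hρ.ne', Complex.ofReal_zero, zero_mul]
        exact Eventually.of_forall fun _ => differentiableAt_const _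
      · have a : ∀ᶠ z in 𝓝 c, Φ x z / Φ x c ∈ Complex.slitPlane :=
          ((hΦ x).continuous.div_const _).continuousAt.eventually
            (Complex.isOpen_slitPlane.mem_nhds (by simp [div_self h]))
        exact a.mono fun z hz => (((hΦ x z).div_const _).cpow_const hz).const_mul _
    filter_upwards [(eventually_all_finset s).2 this] with z hz
    exact DifferentiableAt.fun_sum hz
  have hm : IsLocalMax (norm ∘ g) c := hc.mono fun z hz => (le z).trans (hz.trans eq.ge)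
  filter_upwards [Complex.norm_eventually_eq_of_isLocalMax hd hm] with z hz
  rw [← eq, ← hz]
  exact le z

/-- the maximum principle on the strip -/
theorem strip_max {u : ℂ → ℝ} (hu : Continuous u) {M : ℝ}
    (hl : ∀ c, IsLocalMax u c → ∀ᶠ z in 𝓝 c, u c ≤ u z)
    (hb : ∀ δ : ℝ, M < δ → ∃ T : ℝ, ∀ z : ℂ, z.re ∈ Icc (0 : ℝ) 1 → δ ≤ u z → |z.im| ≤ T)
    (h0 : ∀ z : ℂ, z.re = 0 → u z ≤ M) (h1 : ∀ z : ℂ, z.re = 1 → u z ≤ M) {w : ℂ}
    (hw : w.re ∈ Icc (0 : ℝ) 1) : u w ≤ M := by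
  by_contra hc
  rw [not_le] at hc
  have cp : ∀ δ : ℝ, M < δ → IsCompact {z : ℂ | z.re ∈ Icc (0 : ℝ) 1 ∧ δ ≤ u z} := fun δ hδ => by
    obtain ⟨T, hT⟩ := hb δ hδ
    refine Metric.isCompact_of_isClosed_isBounded ((isClosed_Icc.preimage Complex.continuous_re).inter
      (isClosed_le continuous_const hu)) ((Metric.isBounded_closedBall (x := 0) (r := 1 + T)).subset
        fun z hz => ?_)
    rw [mem_closedBall_zero_iff]
    refine (Complex.norm_le_abs_re_add_abs_im z).trans (add_le_add ?_ (hT z hz.1 hz.2))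
    rw [abs_of_nonneg hz.1.1]
    exact hz.1.2
  obtain ⟨a, ha, hm⟩ := (cp _ hc).exists_isMaxOn ⟨w, hw, le_rfl⟩ hu.continuousOn
  have hM : M < u a := hc.trans_le ha.2
  have gl : ∀ z : ℂ, z.re ∈ Icc (0 : ℝ) 1 → u z ≤ u a := fun z hz => by
    rcases le_total (u w) (u z) with h | h
    exacts [hm ⟨hz, h⟩, h.trans ha.2]
  obtain ⟨c, hc1, hc2⟩ := (cp _ hM).exists_isMaxOn ⟨a, ha.1, le_rfl⟩
    Complex.continuous_re.continuousOn
  have c0 : 0 < c.re := hc1.1.1.lt_of_ne fun h => by linarith [h0 c h.symm, hc1.2]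
  have c1 : c.re < 1 := hc1.1.2.lt_of_ne fun h => by linarith [h1 c h, hc1.2]
  have ev : ∀ᶠ z in 𝓝 c, z.re ∈ Icc (0 : ℝ) 1 :=
    Complex.continuous_re.continuousAt.eventually (Icc_mem_nhds c0 c1)
  have e2 := (hl c (ev.mono fun z hz => (gl z hz).trans hc1.2)).and ev
  have t : Tendsto (fun ε : ℝ => c + ε) (𝓝[>] 0) (𝓝 c) := by
    have : Continuous fun ε : ℝ => c + ε := by fun_prop
    simpa using (this.tendsto 0).mono_left nhdsWithin_le_nhds
  obtain ⟨ε, h, hε⟩ := ((t.eventually e2).and self_mem_nhdsWithin).exists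
  have : (c + ε).re ≤ c.re := hc2 ⟨h.2, hc1.2.trans h.1⟩
  simp only [Complex.add_re, Complex.ofReal_re] at this
  exact absurd hε (not_lt.2 (by linarith))

/-- **three lines** for small powers -/
theorem three {ι : Type*} (s : Finset ι) {Φ : ι → ℂ → ℂ} (hΦ : ∀ x, Differentiable ℂ (Φ x))
    {B : ι → ℝ} (hB : ∀ x (z : ℂ), z.re ∈ Icc (0 : ℝ) 1 → ‖Φ x z‖ ≤ B x) {ρ : ℝ} (hρ : 0 < ρ)
    {a b θ : ℝ} (ha : 0 < a) (hb : 0 < b) (h0 : ∀ z : ℂ, z.re = 0 → ∑ x ∈ s, ‖Φ x z‖ ^ ρ ≤ a)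
    (h1 : ∀ z : ℂ, z.re = 1 → ∑ x ∈ s, ‖Φ x z‖ ^ ρ ≤ b) (t0 : 0 ≤ θ) (t1 : θ ≤ 1) :
    ∑ x ∈ s, ‖Φ x θ‖ ^ ρ ≤ Real.exp 1 * (a ^ (1 - θ) * b ^ θ) := by
  set l : ℝ := Real.log a - Real.log b with hl
  set Ψ : ι → ℂ → ℂ := fun x z => Φ x z * Complex.exp ((z ^ 2 + l * z) / ρ) with hΨ
  have dΨ : ∀ x, Differentiable ℂ (Ψ x) := fun x => (hΦ x).mul (by fun_prop)
  have e : ∀ z : ℂ, ∑ x ∈ s, ‖Ψ x z‖ ^ ρ =
      (∑ x ∈ s, ‖Φ x z‖ ^ ρ) * Real.exp (z.re ^ 2 - z.im ^ 2 + l * z.re) := fun z => by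
    rw [Finset.sum_mul]
    refine Finset.sum_congr rfl fun x _ => ?_
    rw [hΨ, norm_mul, Real.mul_rpow (norm_nonneg _) (norm_nonneg _), Complex.norm_exp,
      ← Real.exp_mul, Complex.div_ofReal_re, div_mul_cancel₀ _ hρ.ne']
    congr 2
    simp [sq]
  have nn : ∀ z, 0 ≤ ∑ x ∈ s, ‖Φ x z‖ ^ ρ := fun z => Finset.sum_nonneg fun _ _ => by positivity
  have key := strip_max (u := fun z => ∑ x ∈ s, ‖Ψ x z‖ ^ ρ) (M := Real.exp 1 * a)
    (continuous_finsetSum _ fun x _ => (dΨ x).continuous.norm.rpow_const fun _ => Or.inr hρ.le)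
    (fun c hc => loc_const s dΨ hρ hc) (fun δ hδ => ?_) (fun z hz => ?_) (fun z hz => ?_)
    (w := θ) ⟨t0, t1⟩
  · simp only [e, Complex.ofReal_re, Complex.ofReal_im] at key
    have k2 : a = a ^ (1 - θ) * b ^ θ * Real.exp (l * θ) := by
      rw [Real.rpow_def_of_pos ha, Real.rpow_def_of_pos hb, ← Real.exp_add, ← Real.exp_add]
      nth_rewrite 1 [← Real.exp_log ha]
      congr 1
      rw [hl]
      ring
    refine le_of_mul_le_mul_right ?_ (Real.exp_pos (l * θ))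
    rw [mul_assoc, ← k2]
    refine le_trans (mul_le_mul_of_nonneg_left (Real.exp_le_exp.2 ?_) (nn _)) key
    nlinarith
  · have δ0 : 0 < δ := lt_trans (by positivity) hδ
    set K : ℝ := (∑ x ∈ s, B x ^ ρ) * Real.exp (1 + |l|) with hK
    refine ⟨K / δ, fun z hz h => ?_⟩
    rw [e] at h
    have b1 : ∑ x ∈ s, ‖Φ x z‖ ^ ρ ≤ ∑ x ∈ s, B x ^ ρ := Finset.sum_le_sum fun x _ =>
      Real.rpow_le_rpow (norm_nonneg _) (hB x z hz) hρ.le
    have b2 : Real.exp (z.re ^ 2 - z.im ^ 2 + l * z.re) * |z.im| ≤ Real.exp (1 + |l|) := by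
      have : |z.im| ≤ Real.exp (z.im ^ 2) := by
        have := Real.add_one_le_exp (z.im ^ 2)
        nlinarith [sq_abs z.im, sq_nonneg (|z.im| - 1)]
      refine (mul_le_mul_of_nonneg_left this (Real.exp_pos _).le).trans ?_
      rw [← Real.exp_add]
      refine Real.exp_le_exp.2 ?_
      nlinarith [hz.1, hz.2, le_abs_self l, abs_nonneg l]
    rw [le_div_iff₀ δ0, mul_comm]
    refine (mul_le_mul_of_nonneg_right h (abs_nonneg _)).trans ?_
    rw [mul_assoc]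
    exact mul_le_mul b1 b2 (by positivity) ((nn z).trans b1)
  · simp only [e, hz]
    rw [mul_comm]
    exact mul_le_mul (Real.exp_le_exp.2 (by nlinarith [sq_nonneg z.im])) (h0 z hz) (nn _)
      (Real.exp_pos _).le
  · simp only [e, hz]
    refine (mul_le_mul (h1 z hz) (Real.exp_le_exp.2 (show _ ≤ 1 + l by nlinarith [sq_nonneg z.im]))
      (Real.exp_pos _).le hb.le).trans (le_of_eq ?_)
    rw [Real.exp_add, hl, Real.exp_sub, Real.exp_log ha, Real.exp_log hb]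
    field_simp

end Vale.Agent.N141X
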