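import Vale.Agent.N141W.Main
import Vale.Agent.N141X.Thr

/-!
# Complex interpolation with quasi-normed targets
-/

open MeasureTheory Set Filter Topology
open scoped ENNReal SchwartzMap

namespace Vale.Agent.N141X

open Vale.Agent.P141 Vale.Agent.N141W Function

theorem three' {ι : Type*} (s : Finset ι) {Φ : ι → ℂ → ℂ} (hΦ : ∀ x, Differentiable ℂ (Φ x))
    {B : ι → ℝ} (hB : ∀ x (z : ℂ), z.re ∈ Icc (0 : ℝ) 1 → ‖Φ x z‖ ≤ B x) {ρ : ℝ} (hρ : 0 < ρ)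
    {a b θ : ℝ} (ha : 0 ≤ a) (hb : 0 ≤ b) (h0 : ∀ z : ℂ, z.re = 0 → ∑ x ∈ s, ‖Φ x z‖ ^ ρ ≤ a)
    (h1 : ∀ z : ℂ, z.re = 1 → ∑ x ∈ s, ‖Φ x z‖ ^ ρ ≤ b) (t0 : 0 ≤ θ) (t1 : θ ≤ 1) :
    ∑ x ∈ s, ‖Φ x θ‖ ^ ρ ≤ Real.exp 1 * (a ^ (1 - θ) * b ^ θ) := by
  have c : Continuous fun δ : ℝ => Real.exp 1 * ((a + δ) ^ (1 - θ) * (b + δ) ^ θ) :=
    continuous_const.mul (((continuous_const.add continuous_id).rpow_const fun _ =>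
      Or.inr (by linarith)).mul ((continuous_const.add continuous_id).rpow_const fun _ =>
        Or.inr t0))
  have t := (c.tendsto 0).mono_left (nhdsWithin_le_nhds (s := Ioi 0))
  simp only [add_zero] at t
  refine ge_of_tendsto t (eventually_nhdsWithin_of_forall fun δ (hδ : 0 < δ) => ?_)
  exact three s hΦ hB hρ (by linarith) (by linarith) (fun z hz => (h0 z hz).trans (by linarith))
    (fun z hz => (h1 z hz).trans (by linarith)) t0 t1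

theorem fin_pow {ρ : ℝ≥0∞} (h0 : ρ ≠ 0) (ht : ρ ≠ ∞) {F : ℤ → ℂ} {s : Finset ℤ}
    (hF : ∀ x ∉ s, F x = 0) : eLpNorm F ρ Measure.count ^ ρ.toReal =
      ENNReal.ofReal (∑ x ∈ s, ‖F x‖ ^ ρ.toReal) := by
  have hρ := ENNReal.toReal_pos h0 ht
  rw [eLp_pow h0 ht, lintegral_count, tsum_eq_sum (s := s) fun x hx => by
    rw [hF x hx, enorm_zero, ENNReal.zero_rpow_of_pos hρ],
    ENNReal.ofReal_sum_of_nonneg fun _ _ => by positivity]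
  exact Finset.sum_congr rfl fun x _ => by
    rw [← ENNReal.ofReal_rpow_of_nonneg (norm_nonneg _) hρ.le, ofReal_norm]

/-- the bound in `ℓ^ρ` with a fourth function -/
def FormR (ρ p₀ p₁ p₂ p₃ : ℝ≥0∞) : Prop :=
  ∃ C : ℝ≥0∞, C < ∞ ∧ ∀ (f₀ f₁ f₂ f₃ : ℤ → ℂ), (support f₀).Finite → (support f₁).Finite →
    (support f₂).Finite → (support f₃).Finite → ∀ M N : ℕ,
      eLpNorm (fun x => f₀ x * dH f₁ f₂ f₃ M N x) ρ Measure.count ≤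
      C * eLpNorm f₀ p₀ Measure.count * eLpNorm f₁ p₁ Measure.count *
        eLpNorm f₂ p₂ Measure.count * eLpNorm f₃ p₃ Measure.count

theorem formR_of_disc {ρ p₀ p₁ p₂ p₃ r : ℝ≥0∞} (h : p₀⁻¹ + r⁻¹ = ρ⁻¹) (H : DiscFin p₁ p₂ p₃ r) :
    FormR ρ p₀ p₁ p₂ p₃ := by
  obtain ⟨C, hC, H⟩ := H
  refine ⟨C, hC, fun f₀ f₁ f₂ f₃ _ s₁ s₂ s₃ M N => ?_⟩
  have : ENNReal.HolderTriple p₀ r ρ := ⟨h⟩
  have k := eLpNorm_smul_le_mul_eLpNorm (μ := Measure.count) (p := p₀) (q := r) (r := ρ)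
    (measurable_of_countable (dH f₁ f₂ f₃ M N)).aestronglyMeasurable
    (measurable_of_countable f₀).aestronglyMeasurable
  exact (k.trans (mul_le_mul_right (H f₁ f₂ f₃ s₁ s₂ s₃ M N) _)).trans (le_of_eq (by ring))

theorem disc_of_formR {ρ p₀ p₁ p₂ p₃ r : ℝ≥0∞} (h : p₀⁻¹ + r⁻¹ = ρ⁻¹) (p0 : p₀ ≠ 0) (r0 : r ≠ 0)
    (rt : r ≠ ∞) (H : FormR ρ p₀ p₁ p₂ p₃) : DiscFin p₁ p₂ p₃ r := by
  obtain ⟨C, hC, H⟩ := H
  refine ⟨C, hC, fun f₁ f₂ f₃ s₁ s₂ s₃ M N => ?_⟩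
  have hg := dH_fin s₁ f₂ f₃ M N
  set g := dH f₁ f₂ f₃ M N with eg
  have hr := ENNReal.toReal_pos r0 rt
  set a : ℝ := (p₀⁻¹).toReal * r.toReal with ha
  have a0 : 0 ≤ a := by positivity
  have ρ0 : ρ ≠ 0 := ENNReal.inv_ne_top.1
    (h ▸ ENNReal.add_ne_top.2 ⟨ENNReal.inv_ne_top.2 p0, ENNReal.inv_ne_top.2 r0⟩)
  have ρt : ρ ≠ ∞ := ENNReal.inv_ne_zero.1
    (h ▸ fun k => ENNReal.inv_ne_zero.2 rt (add_eq_zero.1 k).2)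
  have e : ρ * ENNReal.ofReal (a + 1) = r := by
    have k := congrArg ENNReal.toReal h
    rw [ENNReal.toReal_add (ENNReal.inv_ne_top.2 p0) (ENNReal.inv_ne_top.2 r0),
      ENNReal.toReal_inv r, ENNReal.toReal_inv ρ] at k
    have := ENNReal.toReal_pos ρ0 ρt
    rw [← ENNReal.toReal_eq_toReal_iff' (ENNReal.mul_ne_top ρt ENNReal.ofReal_ne_top) rt,
      ENNReal.toReal_mul, ENNReal.toReal_ofReal (by positivity), ha, eq_sub_of_add_eq k]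
    field_simp
    ring
  set f : ℤ → ℂ := fun x => if g x = 0 then 0 else ((‖g x‖ ^ a : ℝ) : ℂ) with hf
  have e2 : ∀ x, ‖f x‖ ≤ ‖g x‖ ^ a := fun x => by
    by_cases hx : g x = 0
    · simp only [hf, hx, if_true, norm_zero]
      positivity
    · simp only [hf, hx, if_false, Complex.norm_real]
      exact (Real.norm_of_nonneg (by positivity)).le
  have e3 : eLpNorm g r Measure.count ^ (a + 1) ≤ eLpNorm (fun x => f x * g x) ρ Measure.count := by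
    rw [← e, ← eLpNorm_norm_rpow g (by positivity)]
    refine eLpNorm_mono fun x => le_of_eq ?_
    by_cases hx : g x = 0
    · simp [hx, Real.zero_rpow (show a + 1 ≠ 0 by positivity)]
    · simp only [hf, hx, if_false, norm_mul, Complex.norm_real]
      rw [Real.norm_of_nonneg (by positivity), Real.norm_of_nonneg (by positivity),
        Real.rpow_add_one (norm_ne_zero_iff.2 hx)]
  have k := (e3.trans (H f f₁ f₂ f₃ (hg.subset fun x hx h0 => hx (by simp [hf, h0])) s₁ s₂ s₃ M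
    N)).trans (mul_le_mul_left (mul_le_mul_left (mul_le_mul_left (mul_le_mul_right
      (pow_norm p0 r0 a0 (Or.inr ⟨by
        rw [ha, ENNReal.toReal_inv r, mul_assoc, mul_inv_cancel₀ hr.ne', mul_one], rt⟩) e2) _) _) _) _)
  have nt := fin_norm hg r
  rcases eq_or_ne (eLpNorm g r Measure.count) 0 with n0 | n0
  · rw [n0]
    exact zero_le
  rw [ENNReal.rpow_add _ _ n0 nt, ENNReal.rpow_one] at k
  exact (ENNReal.mul_le_mul_iff_right (ENNReal.rpow_pos n0.bot_lt nt).ne'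
    (ENNReal.rpow_ne_top_of_nonneg a0 nt)).1 (k.trans (le_of_eq (by ring)))

theorem FormR.interp {ρ p₀ p₁ p₂ p₃ q₀ q₁ q₂ q₃ m₀ m₁ m₂ m₃ : ℝ≥0∞} {θ : ℝ} (h0 : 0 < θ)
    (h1 : θ < 1) (ρ0 : ρ ≠ 0) (ρt : ρ ≠ ∞)
    (hp : p₀ ≠ 0 ∧ p₁ ≠ 0 ∧ p₂ ≠ 0 ∧ p₃ ≠ 0) (hq : q₀ ≠ 0 ∧ q₁ ≠ 0 ∧ q₂ ≠ 0 ∧ q₃ ≠ 0)
    (hm : m₀ ≠ 0 ∧ m₁ ≠ 0 ∧ m₂ ≠ 0 ∧ m₃ ≠ 0)
    (e₀ : (m₀⁻¹).toReal = (1 - θ) * (p₀⁻¹).toReal + θ * (q₀⁻¹).toReal)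
    (e₁ : (m₁⁻¹).toReal = (1 - θ) * (p₁⁻¹).toReal + θ * (q₁⁻¹).toReal)
    (e₂ : (m₂⁻¹).toReal = (1 - θ) * (p₂⁻¹).toReal + θ * (q₂⁻¹).toReal)
    (e₃ : (m₃⁻¹).toReal = (1 - θ) * (p₃⁻¹).toReal + θ * (q₃⁻¹).toReal)
    (P : FormR ρ p₀ p₁ p₂ p₃) (Q : FormR ρ q₀ q₁ q₂ q₃) : FormR ρ m₀ m₁ m₂ m₃ := by
  obtain ⟨C, hC, P⟩ := P
  obtain ⟨D, hD, Q⟩ := Q
  obtain ⟨a₀, b₀, t₀, k₀⟩ := exps hp.1 hq.1 hm.1 h0 h1 e₀
  obtain ⟨a₁, b₁, t₁, k₁⟩ := exps hp.2.1 hq.2.1 hm.2.1 h0 h1 e₁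
  obtain ⟨a₂, b₂, t₂, k₂⟩ := exps hp.2.2.1 hq.2.2.1 hm.2.2.1 h0 h1 e₂
  obtain ⟨a₃, b₃, t₃, k₃⟩ := exps hp.2.2.2 hq.2.2.2 hm.2.2.2 h0 h1 e₃
  have θ1 : 0 ≤ 1 - θ := by linarith
  have hρ := ENNReal.toReal_pos ρ0 ρt
  refine ⟨ENNReal.ofReal (Real.exp 1) ^ (ρ.toReal)⁻¹ * (C ^ (1 - θ) * D ^ θ), ENNReal.mul_lt_top
    (ENNReal.rpow_lt_top_of_nonneg (by positivity) ENNReal.ofReal_ne_top)
    (ENNReal.mul_lt_top (ENNReal.rpow_lt_top_of_nonneg θ1 hC.ne)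
      (ENNReal.rpow_lt_top_of_nonneg h0.le hD.ne)), fun f₀ f₁ f₂ f₃ s₀ s₁ s₂ s₃ M N => ?_⟩
  set Φ : ℤ → ℂ → ℂ := fun x z => af f₀ a₀ b₀ z x *
    dH (af f₁ a₁ b₁ z) (af f₂ a₂ b₂ z) (af f₃ a₃ b₃ z) M N x with hΦ
  have z0 : ∀ z, ∀ x ∉ s₀.toFinset, Φ x z = 0 := fun z x hx => by
    simp only [hΦ, af, notMem_support.1 fun h => hx (s₀.mem_toFinset.2 h), zero_mul]
  have hd : ∀ x, Differentiable ℂ (Φ x) := fun x => (af_diff _ _ _ _).mul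
    (Differentiable.fun_sum fun n _ =>
      (((af_diff _ _ _ _).mul (af_diff _ _ _ _)).mul (af_diff _ _ _ _)).div_const _)
  set w : (ℤ → ℂ) → ℝ → ℝ → ℤ → ℝ := fun f a b x =>
    ‖f x‖ * Real.exp ((|a| + |b| + 1) * |Real.log ‖f x‖|) with hw
  have hb : ∀ x (z : ℂ), z.re ∈ Icc (0 : ℝ) 1 → ‖Φ x z‖ ≤ w f₀ a₀ b₀ x *
      ∑ n ∈ Finset.Icc (-(N : ℤ)) N with (M : ℤ) < |n|,
      w f₁ a₁ b₁ (x - n) * w f₂ a₂ b₂ (x - 2 * n) * w f₃ a₃ b₃ (x - 3 * n) / ‖(n : ℂ)‖ := by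
    intro x z hz
    rw [hΦ, norm_mul]
    refine mul_le_mul (af_bd _ _ _ _ hz) ((norm_sum_le _ _).trans (Finset.sum_le_sum fun n _ => ?_))
      (norm_nonneg _) (by positivity)
    rw [norm_div, norm_mul, norm_mul]
    gcongr
    exacts [af_bd _ _ _ _ hz, af_bd _ _ _ _ hz, af_bd _ _ _ _ hz]
  have n₀ := fin_norm s₀ m₀
  have n₁ := fin_norm s₁ m₁
  have n₂ := fin_norm s₂ m₂
  have n₃ := fin_norm s₃ m₃
  set N₀ := eLpNorm f₀ m₀ Measure.count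
  set N₁ := eLpNorm f₁ m₁ Measure.count
  set N₂ := eLpNorm f₂ m₂ Measure.count
  set N₃ := eLpNorm f₃ m₃ Measure.count
  obtain ⟨-, -, x₀, y₀⟩ := k₀ f₀ 0
  obtain ⟨-, -, x₁, y₁⟩ := k₁ f₀ 0
  obtain ⟨-, -, x₂, y₂⟩ := k₂ f₀ 0
  obtain ⟨-, -, x₃, y₃⟩ := k₃ f₀ 0
  have fin : ∀ {C : ℝ≥0∞} {a b c d : ℝ}, C < ∞ → 0 ≤ a → 0 ≤ b → 0 ≤ c → 0 ≤ d →
      (C * N₀ ^ a * N₁ ^ b * N₂ ^ c * N₃ ^ d) ^ ρ.toReal ≠ ∞ := fun hC a b c d =>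
    ENNReal.rpow_ne_top_of_nonneg hρ.le
      (ENNReal.mul_ne_top (ENNReal.mul_ne_top (ENNReal.mul_ne_top (ENNReal.mul_ne_top hC.ne
      (ENNReal.rpow_ne_top_of_nonneg a n₀)) (ENNReal.rpow_ne_top_of_nonneg b n₁))
      (ENNReal.rpow_ne_top_of_nonneg c n₂)) (ENNReal.rpow_ne_top_of_nonneg d n₃))
  have fa := fin hC x₀ x₁ x₂ x₃
  have fb := fin hD y₀ y₁ y₂ y₃
  have key := three' s₀.toFinset hd hb hρ (θ := θ)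
    (a := ((C * N₀ ^ a₀ * N₁ ^ a₁ * N₂ ^ a₂ * N₃ ^ a₃) ^ ρ.toReal).toReal)
    (b := ((D * N₀ ^ b₀ * N₁ ^ b₁ * N₂ ^ b₂ * N₃ ^ b₃) ^ ρ.toReal).toReal)
    ENNReal.toReal_nonneg ENNReal.toReal_nonneg
    (fun z hz => by
      rw [← ENNReal.ofReal_le_iff_le_toReal fa, ← fin_pow ρ0 ρt (z0 z)]
      refine ENNReal.rpow_le_rpow ((P _ _ _ _ (af_fin s₀ _ _ _) (af_fin s₁ _ _ _) (af_fin s₂ _ _ _)
        (af_fin s₃ _ _ _) M N).trans ?_) hρ.le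
      gcongr
      exacts [(k₀ f₀ z).1 hz, (k₁ f₁ z).1 hz, (k₂ f₂ z).1 hz, (k₃ f₃ z).1 hz])
    (fun z hz => by
      rw [← ENNReal.ofReal_le_iff_le_toReal fb, ← fin_pow ρ0 ρt (z0 z)]
      refine ENNReal.rpow_le_rpow ((Q _ _ _ _ (af_fin s₀ _ _ _) (af_fin s₁ _ _ _) (af_fin s₂ _ _ _)
        (af_fin s₃ _ _ _) M N).trans ?_) hρ.le
      gcongr
      exacts [(k₀ f₀ z).2.1 hz, (k₁ f₁ z).2.1 hz, (k₂ f₂ z).2.1 hz, (k₃ f₃ z).2.1 hz]) h0.le h1.le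
  have ea : ∀ (f : ℤ → ℂ) {a b : ℝ}, (1 - θ) * a + θ * b = 1 → af f a b θ = f := fun f a b h => by
    funext x
    have : ((1 - θ) * a + θ * b - 1 : ℂ) = 0 := by exact_mod_cast sub_eq_zero.2 h
    rw [af, this, zero_mul, Complex.exp_zero, mul_one]
  have k2 := ENNReal.ofReal_le_ofReal key
  rw [← fin_pow ρ0 ρt (z0 θ)] at k2
  simp only [hΦ, ea _ t₀, ea _ t₁, ea _ t₂, ea _ t₃] at k2
  rw [← ENNReal.rpow_le_rpow_iff hρ]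
  refine k2.trans (le_of_eq ?_)
  rw [ENNReal.ofReal_mul (by positivity), ENNReal.ofReal_mul (by positivity),
    ← ENNReal.ofReal_rpow_of_nonneg ENNReal.toReal_nonneg θ1,
    ← ENNReal.ofReal_rpow_of_nonneg ENNReal.toReal_nonneg h0.le, ENNReal.ofReal_toReal fa,
    ENNReal.ofReal_toReal fb, ← ENNReal.rpow_mul, ← ENNReal.rpow_mul, mul_comm _ (1 - θ),
    mul_comm _ θ, ENNReal.rpow_mul, ENNReal.rpow_mul, ← ENNReal.mul_rpow_of_nonneg _ _ hρ.le]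
  nth_rewrite 1 [← ENNReal.rpow_inv_rpow hρ.ne' (ENNReal.ofReal (Real.exp 1))]
  rw [← ENNReal.mul_rpow_of_nonneg _ _ hρ.le]
  congr 1
  simp only [ENNReal.mul_rpow_of_nonneg _ _ θ1, ENNReal.mul_rpow_of_nonneg _ _ h0.le,
    ← ENNReal.rpow_mul]
  have j : ∀ (X : ℝ≥0∞) {a b : ℝ}, 0 ≤ a → 0 ≤ b → (1 - θ) * a + θ * b = 1 →
      X ^ (a * (1 - θ)) * X ^ (b * θ) = X := fun X a b ha hb h => by
    rw [← ENNReal.rpow_add_of_nonneg _ _ (by positivity) (by positivity),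
      show a * (1 - θ) + b * θ = 1 by linarith, ENNReal.rpow_one]
  calc _ = ENNReal.ofReal (Real.exp 1) ^ (ρ.toReal)⁻¹ * (C ^ (1 - θ) * D ^ θ) *
        (N₀ ^ (a₀ * (1 - θ)) * N₀ ^ (b₀ * θ)) *
        (N₁ ^ (a₁ * (1 - θ)) * N₁ ^ (b₁ * θ)) * (N₂ ^ (a₂ * (1 - θ)) * N₂ ^ (b₂ * θ)) *
        (N₃ ^ (a₃ * (1 - θ)) * N₃ ^ (b₃ * θ)) := by ring
    _ = _ := by rw [j _ x₀ y₀ t₀, j _ x₁ y₁ t₁, j _ x₂ y₂ t₂, j _ x₃ y₃ t₃]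

end Vale.Agent.N141X
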