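import Vale.Agent.N141X.Ker

/-!
# The bound for `T` gives the bound for the discrete transform, for all exponents
-/

open MeasureTheory Set Filter Topology
open scoped ENNReal SchwartzMap

namespace Vale.Agent.N141X

open Vale.Agent.P141 Vale.Agent.N141W Function

variable {p₁ p₂ p₃ r : ℝ≥0∞}

theorem PP_cut (f₁ f₂ f₃ : ℤ → ℂ) (a : ℤ) {L : ℕ} {m n : ℤ} (h : |m| + 3 * |n| ≤ L) :
    PP (cut f₁ a L) (cut f₂ a L) (cut f₃ a L) n m = PP f₁ f₂ f₃ n (a + m) := by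
  have u := le_abs_self m
  have v := neg_abs_le m
  have w := le_abs_self n
  have z := neg_abs_le n
  simp only [PP]
  rw [cut_eq _ _ (abs_le.2 ⟨by omega, by omega⟩), cut_eq _ _ (abs_le.2 ⟨by omega, by omega⟩),
    cut_eq _ _ (abs_le.2 ⟨by omega, by omega⟩)]
  simp only [add_sub_assoc]

theorem adm_re {k : ℤ → ℂ} (hk : Adm k) {σ n : ℤ} (hσ : σ = 1 ∨ σ = -1) (h2 : 2 ≤ σ * n) {M : ℝ}
    (hM : ((σ * n : ℤ) : ℝ) ≤ 4 * M) : cc / 8 * M⁻¹ ≤ ((σ : ℂ) * k n).re := by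
  have c := cc_pos
  have n0 : n ≠ 0 := by rintro rfl; simp at h2
  have j2 : (2 : ℝ) ≤ ((σ * n : ℤ) : ℝ) := by exact_mod_cast h2
  have e1 : |(n : ℝ)| = ((σ * n : ℤ) : ℝ) := by
    rw [← abs_of_nonneg (zero_le_two.trans j2)]
    rcases hσ with rfl | rfl <;> simp
  have e2 : (σ : ℂ) * ((cc : ℂ) / n) = ((cc / ((σ * n : ℤ) : ℝ) : ℝ) : ℂ) := by
    rcases hσ with rfl | rfl <;> simp [div_neg]
  have e3 : ‖(σ : ℂ)‖ = 1 := by rcases hσ with rfl | rfl <;> simp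
  have a := hk n n0
  rw [e1] at a
  generalize ((σ * n : ℤ) : ℝ) = j at *
  have b := (abs_le.1 (Complex.abs_re_le_norm ((σ : ℂ) * (k n - (cc : ℂ) / n)))).1
  rw [norm_mul, e3, one_mul, mul_sub, Complex.sub_re, e2, Complex.ofReal_re] at b
  have d : cc / 8 * M⁻¹ + cc * j ^ (-2 : ℝ) ≤ cc / j := by
    have M0 : 0 < M := by linarith
    rw [Real.rpow_neg (by linarith), Real.rpow_two]
    have d1 : cc / 8 * M⁻¹ ≤ cc / j / 2 := by
      rw [← div_eq_mul_inv, div_div, div_div]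
      exact div_le_div_of_nonneg_left c.le (by linarith) (by linarith)
    have d2 : cc * (j ^ 2)⁻¹ ≤ cc / j / 2 := by
      rw [← div_eq_mul_inv, div_div]
      exact div_le_div_of_nonneg_left c.le (by linarith) (by nlinarith)
    linarith
  linarith

/-- the positive average over one side of one scale -/
noncomputable def blk (σ : ℤ) (M : ℕ) : Op := fun f₁ f₂ f₃ x =>
  (M : ℝ)⁻¹ * ∑ n ∈ Finset.Icc (-(3 * M : ℤ)) (3 * M) with (M : ℤ) ≤ σ * n, ‖PP f₁ f₂ f₃ n x‖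

theorem blk_bd (h : IsHolderTuple p₁ p₂ p₃ r) (H : BoundedAt p₁ p₂ p₃ r) {σ : ℤ}
    (hσ : σ = 1 ∨ σ = -1) : UB p₁ p₂ p₃ r fun M : {M : ℕ // 2 ≤ M} => blk σ M := by
  have c := cc_pos
  have k1 := UB.ker h H (ι := {M : ℕ // 2 ≤ M})
    (a := fun M f₁ f₂ f₃ x => if |x| ≤ ((M.1 - 2) / 2 : ℕ) then cc / 8 * blk σ M f₁ f₂ f₃ x else 0)
    (fun M f y => if (M.1 : ℤ) - ((M.1 - 2) / 2 : ℕ) ≤ -(σ * y) ∧
      -(σ * y) ≤ 3 * M.1 + ((M.1 - 2) / 2 : ℕ) then ((‖f y‖ : ℝ) : ℂ) else 0)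
    (fun _ f y => ((‖f y‖ : ℝ) : ℂ)) (fun _ f y => ((‖f y‖ : ℝ) : ℂ))
    (fun M f y => by split_ifs <;> simp) (fun _ _ _ => by simp) (fun _ _ _ => by simp) (by
      rintro ⟨M, hM⟩ f₁ f₂ f₃ x
      dsimp only
      by_cases hx : |x| ≤ ((M - 2) / 2 : ℕ)
      swap
      · exact Or.inl (if_neg hx)
      have a := abs_le.1 hx
      refine Or.inr ⟨4 * M, fun n hn => if_neg fun b => ?_, fun k hk => ?_⟩
      · rcases lt_abs.1 hn with d | d <;> rcases hσ with rfl | rfl <;> omega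
      set q : ℤ → ℝ := fun n => (if (M : ℤ) - ((M - 2) / 2 : ℕ) ≤ -(σ * (x - n)) ∧
        -(σ * (x - n)) ≤ 3 * M + ((M - 2) / 2 : ℕ) then ‖f₁ (x - n)‖ else 0) * ‖f₂ (x - 2 * n)‖ *
          ‖f₃ (x - 3 * n)‖ with hq
      have q0 : ∀ n, 0 ≤ q n := fun n => by
        simp only [hq]
        split_ifs <;> positivity
      have e3 : ‖(σ : ℂ)‖ = 1 := by rcases hσ with rfl | rfl <;> simp
      rw [if_pos hx, abs_of_nonneg (by unfold blk; positivity), ← one_mul ‖_‖, ← e3, ← norm_mul]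
      refine le_trans ?_ (Complex.re_le_norm _)
      rw [blk, ← mul_assoc, Finset.mul_sum, Finset.mul_sum, Complex.re_sum]
      refine le_trans (le_trans (Finset.sum_le_sum (g := fun n => cc / 8 * (M : ℝ)⁻¹ * q n)
        fun n hn => le_of_eq ?_) (Finset.sum_le_sum_of_subset_of_nonneg (fun n hn => ?_)
          fun n _ _ => mul_nonneg (by positivity) (q0 n))) (Finset.sum_le_sum fun n _ => ?_)
      · simp only [Finset.mem_filter, Finset.mem_Icc] at hn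
        simp only [hq, PP, norm_mul]
        rw [if_pos (by rcases hσ with rfl | rfl <;> omega)]
      · simp only [Finset.mem_filter, Finset.mem_Icc, lt_abs] at hn ⊢
        rcases hσ with rfl | rfl <;> omega
      · by_cases b : (M : ℤ) - ((M - 2) / 2 : ℕ) ≤ -(σ * (x - n)) ∧
          -(σ * (x - n)) ≤ 3 * M + ((M - 2) / 2 : ℕ)
        · have e : PP (fun y => if (M : ℤ) - ((M - 2) / 2 : ℕ) ≤ -(σ * y) ∧
              -(σ * y) ≤ 3 * M + ((M - 2) / 2 : ℕ) then ((‖f₁ y‖ : ℝ) : ℂ) else 0)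
              (fun y => ((‖f₂ y‖ : ℝ) : ℂ)) (fun y => ((‖f₃ y‖ : ℝ) : ℂ)) n x = (q n : ℝ) := by
            simp only [hq, PP, if_pos b, Complex.ofReal_mul]
          rw [e, mul_left_comm (σ : ℂ), Complex.re_ofReal_mul, mul_comm]
          refine mul_le_mul_of_nonneg_left (adm_re hk hσ
            (by rcases hσ with rfl | rfl <;> omega) ?_) (q0 n)
          have : σ * n ≤ 4 * M := by rcases hσ with rfl | rfl <;> omega
          exact_mod_cast this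
        · simp only [hq, PP, if_neg b, zero_mul, mul_zero, Complex.zero_re, le_refl])
  have k2 := UB.glue h (g := fun (M : {M : ℕ // 2 ≤ M}) f₁ f₂ f₃ x => cc / 8 * blk σ M f₁ f₂ f₃ x)
    (fun M => (M.1 - 2) / 2) (fun M => 10 * M.1) 61 (fun M => by have := M.2; omega)
    (fun M f₁ f₂ f₃ a m hm => by
      rw [if_pos hm]
      refine le_of_eq ?_
      congr 2
      unfold blk
      congr 1
      refine Finset.sum_congr rfl fun n hn => ?_
      have := abs_le.2 (Finset.mem_Icc.1 (Finset.mem_filter.1 hn).1)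
      rw [PP_cut _ _ _ _ (by omega)]) k1
  refine k2.mono (8 / cc) fun M => ⟨M, fun f₁ f₂ f₃ x => le_of_eq ?_⟩
  rw [abs_mul, abs_of_pos (by positivity : 0 < cc / 8)]
  field_simp

theorem sum_cover {s t u : Finset ℤ} {w : ℤ → ℝ} (h0 : ∀ n, 0 ≤ w n)
    (h : ∀ n ∈ s, n ∈ t ∨ n ∈ u) : ∑ n ∈ s, w n ≤ ∑ n ∈ t, w n + ∑ n ∈ u, w n := by
  rw [← Finset.sum_union_inter]
  exact (Finset.sum_le_sum_of_subset_of_nonneg (fun n hn => Finset.mem_union.2 (h n hn))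
    fun n _ _ => h0 n).trans (le_add_of_nonneg_right (Finset.sum_nonneg fun n _ => h0 n))

/-- the positive average over one scale -/
noncomputable def BL (M : ℕ) : Op := fun f₁ f₂ f₃ x =>
  (M : ℝ)⁻¹ * ∑ n ∈ Finset.Icc (-(3 * M : ℤ)) (3 * M) with (M : ℤ) ≤ |n|, ‖PP f₁ f₂ f₃ n x‖

theorem BL_nonneg (M : ℕ) (f₁ f₂ f₃ : ℤ → ℂ) (x : ℤ) : 0 ≤ BL M f₁ f₂ f₃ x := by
  unfold BL
  positivity

theorem BL_bd (h : IsHolderTuple p₁ p₂ p₃ r) (H : BoundedAt p₁ p₂ p₃ r) :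
    UB p₁ p₂ p₃ r fun M : {M : ℕ // 2 ≤ M} => BL M := by
  refine ((blk_bd h H (Or.inl rfl)).add (blk_bd h H (Or.inr rfl))).mono 1
    fun M => ⟨M, fun f₁ f₂ f₃ x => ?_⟩
  rw [one_mul, abs_of_nonneg (BL_nonneg _ _ _ _ _)]
  refine le_trans ?_ (le_abs_self _)
  rw [BL, blk, blk, ← mul_add]
  refine mul_le_mul_of_nonneg_left (sum_cover (fun _ => norm_nonneg _) fun n hn => ?_)
    (by positivity)
  simp only [Finset.mem_filter, Finset.mem_Icc, le_abs] at hn ⊢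
  omega

theorem dyad (f₁ f₂ f₃ : ℤ → ℂ) (x : ℤ) (J : ℕ) : ∀ s : Finset ℤ,
    (∀ n ∈ s, n ≠ 0 ∧ |n| < 2 ^ (J + 1)) → ∑ n ∈ s, ‖PP f₁ f₂ f₃ n x‖ * |(n : ℝ)| ^ (-2 : ℝ) ≤
      ‖PP f₁ f₂ f₃ 1 x‖ + ‖PP f₁ f₂ f₃ (-1) x‖ +
        ∑ j ∈ Finset.range J, (1 / 2 : ℝ) ^ j * BL (2 ^ (j + 1)) f₁ f₂ f₃ x := by
  induction J with
  | zero =>
    intro s hs
    refine (sum_cover (t := {1}) (u := {-1}) (fun _ => by positivity) fun n hn => ?_).trans (by simp)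
    have := hs n hn
    simp only [Finset.mem_singleton, abs_lt] at this ⊢
    omega
  | succ J ih =>
    intro s hs
    rw [Finset.sum_range_succ, ← add_assoc]
    refine (sum_cover (t := s.filter fun n => |n| < 2 ^ (J + 1))
      (u := (Finset.Icc (-(3 * (2 ^ (J + 1) : ℕ) : ℤ)) (3 * (2 ^ (J + 1) : ℕ))).filter
        fun n => ((2 ^ (J + 1) : ℕ) : ℤ) ≤ |n|) (fun _ => by positivity) fun n hn => ?_).trans
      (add_le_add (ih _ fun n hn => ⟨(hs n (Finset.mem_filter.1 hn).1).1,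
        (Finset.mem_filter.1 hn).2⟩) ?_)
    · have := (hs n hn).2
      rw [pow_succ] at this
      rw [Finset.mem_filter, Finset.mem_filter, Finset.mem_Icc, ← abs_le]
      push_cast
      rcases lt_or_ge |n| (2 ^ (J + 1)) with a | a
      exacts [Or.inl ⟨hn, a⟩, Or.inr ⟨by omega, a⟩]
    · rw [BL, ← mul_assoc, Finset.mul_sum]
      refine Finset.sum_le_sum fun n hn => ?_
      have a : ((2 : ℝ) ^ (J + 1)) ≤ |(n : ℝ)| := by exact_mod_cast (Finset.mem_filter.1 hn).2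
      rw [mul_comm, Real.rpow_neg (abs_nonneg _), Real.rpow_two, one_div, inv_pow, ← mul_inv]
      refine mul_le_mul_of_nonneg_right (inv_anti₀ (by positivity) ?_) (norm_nonneg _)
      have b : (0 : ℝ) < 2 ^ J := by positivity
      push_cast
      rw [pow_succ] at a ⊢
      nlinarith

/-- the error terms -/
noncomputable def Er (N : ℕ) : Op := fun f₁ f₂ f₃ x => ‖PP f₁ f₂ f₃ 1 x‖ + ‖PP f₁ f₂ f₃ (-1) x‖ +
  ∑ j ∈ Finset.range N, (1 / 2 : ℝ) ^ j * BL (2 ^ (j + 1)) f₁ f₂ f₃ x + 2 * BL (N + 1) f₁ f₂ f₃ x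

theorem Er_bd (h : IsHolderTuple p₁ p₂ p₃ r) (H : BoundedAt p₁ p₂ p₃ r) :
    UB p₁ p₂ p₃ r fun N : ℕ => Er (N + 1) := by
  have t : ∀ n : ℤ, UB p₁ p₂ p₃ r fun (_ : ℕ) f₁ f₂ f₃ x => ‖PP f₁ f₂ f₃ n x‖ := fun n =>
    (UB.term h).mono 1 fun _ => ⟨n, fun _ _ _ _ => (one_mul _).ge⟩
  have a : UB p₁ p₂ p₃ r fun j : ℕ => BL (2 ^ (j + 1)) := (BL_bd h H).mono 1 fun j =>
    ⟨⟨2 ^ (j + 1), Nat.le_self_pow (by simp) 2⟩, fun _ _ _ _ => (one_mul _).ge⟩
  exact (((t 1).add (t (-1))).add ((a.geom h).mono 1 fun N =>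
    ⟨N + 1, fun _ _ _ _ => (one_mul _).ge⟩)).add ((BL_bd h H).mono 2 fun N =>
      ⟨⟨N + 1 + 1, by omega⟩, fun _ _ _ _ => by rw [abs_mul, abs_two]⟩)

theorem trunc_le (f₁ f₂ f₃ : ℤ → ℂ) (N : ℕ) {x : ℤ} (hx : |x| ≤ N) {k : ℤ → ℂ} (hk : Adm k) :
    cc * ‖dH f₁ f₂ f₃ 0 N x‖ - cc * Er N f₁ f₂ f₃ x ≤
      ‖∑ n ∈ Finset.Icc (-((3 * N : ℕ) : ℤ)) (3 * N : ℕ) with ((0 : ℕ) : ℤ) < |n|,
        PP (fun y => if |y| ≤ 2 * N then f₁ y else 0) f₂ f₃ n x * k n‖ := by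
  have c := cc_pos
  set P := PP (fun y => if |y| ≤ 2 * N then f₁ y else 0) f₂ f₃ with hP
  set S := (Finset.Icc (-((3 * N : ℕ) : ℤ)) (3 * N : ℕ)).filter fun n => ((0 : ℕ) : ℤ) < |n| with hS
  set A := (Finset.Icc (-(N : ℤ)) N).filter fun n => ((0 : ℕ) : ℤ) < |n| with hA
  have sub : A ⊆ S := fun n hn => by
    simp only [hA, hS, Finset.mem_filter, Finset.mem_Icc] at hn ⊢
    omega
  have e : (cc : ℂ) * dH f₁ f₂ f₃ 0 N x = ∑ n ∈ S, P n x * k n -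
      ∑ n ∈ A, PP f₁ f₂ f₃ n x * (k n - (cc : ℂ) / n) - ∑ n ∈ S \ A, P n x * k n := by
    rw [← Finset.sum_sdiff sub, sub_right_comm, add_sub_cancel_left, ← Finset.sum_sub_distrib, dH,
      Finset.mul_sum]
    refine Finset.sum_congr rfl fun n hn => ?_
    have := abs_le.2 (Finset.mem_Icc.1 (Finset.mem_filter.1 hn).1)
    simp only [hP, PP]
    rw [if_pos ((abs_sub _ _).trans (by omega))]
    ring
  have b1 : ‖∑ n ∈ A, PP f₁ f₂ f₃ n x * (k n - (cc : ℂ) / n)‖ ≤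
      cc * ∑ n ∈ A, ‖PP f₁ f₂ f₃ n x‖ * |(n : ℝ)| ^ (-2 : ℝ) := by
    rw [Finset.mul_sum]
    refine (norm_sum_le _ _).trans (Finset.sum_le_sum fun n hn => ?_)
    rw [norm_mul, mul_left_comm]
    exact mul_le_mul_of_nonneg_left (hk n (abs_pos.1 (Finset.mem_filter.1 hn).2)) (norm_nonneg _)
  have b2 := dyad f₁ f₂ f₃ x N A fun n hn => ⟨abs_pos.1 (Finset.mem_filter.1 hn).2, by
    have a := abs_le.2 (Finset.mem_Icc.1 (Finset.mem_filter.1 hn).1)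
    have b : (N : ℤ) < 2 ^ (N + 1) := by
      exact_mod_cast (Nat.lt_succ_self N).trans Nat.lt_two_pow_self
    omega⟩
  have b3 : ‖∑ n ∈ S \ A, P n x * k n‖ ≤ cc * (2 * BL (N + 1) f₁ f₂ f₃ x) := by
    rw [BL, ← mul_assoc, ← mul_assoc, Finset.mul_sum]
    have m : ∀ n ∈ S \ A, (N : ℤ) + 1 ≤ |n| ∧ |n| ≤ 3 * N := fun n hn => by
      simp only [hA, hS, Finset.mem_sdiff, Finset.mem_filter, Finset.mem_Icc, ← abs_le] at hn
      omega
    refine (norm_sum_le _ _).trans ((Finset.sum_le_sum fun n hn => ?_).trans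
      (Finset.sum_le_sum_of_subset_of_nonneg (fun n hn => ?_) fun _ _ _ => by positivity))
    · have a : ((N + 1 : ℕ) : ℝ) ≤ |(n : ℝ)| := by exact_mod_cast (m n hn).1
      have a1 : (1 : ℝ) ≤ ((N + 1 : ℕ) : ℝ) := by exact_mod_cast Nat.le_add_left 1 N
      rw [norm_mul, mul_comm]
      refine mul_le_mul ?_ ?_ (norm_nonneg _) (by positivity)
      · have d := hk n (abs_pos.1 (by linarith [(m n hn).1]))
        have d2 := norm_add_le (k n - (cc : ℂ) / n) ((cc : ℂ) / n)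
        rw [sub_add_cancel, norm_div, Complex.norm_real, Real.norm_of_nonneg c.le,
          Complex.norm_intCast, div_eq_mul_inv cc] at d2
        rw [Real.rpow_neg (abs_nonneg _), Real.rpow_two] at d
        have d3 := mul_le_mul_of_nonneg_left (inv_anti₀ (by linarith) a) c.le
        have d4 := mul_le_mul_of_nonneg_left (inv_anti₀ (by linarith)
          (show ((N + 1 : ℕ) : ℝ) ≤ |(n : ℝ)| ^ 2 by nlinarith)) c.le
        linarith
      · simp only [hP, PP, norm_mul]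
        split_ifs
        · exact le_rfl
        · simp only [norm_zero, zero_mul]
          positivity
    · have := m n hn
      rw [Finset.mem_filter, Finset.mem_Icc, ← abs_le]
      omega
  have b4 := norm_sub_le (∑ n ∈ S, P n x * k n -
      ∑ n ∈ A, PP f₁ f₂ f₃ n x * (k n - (cc : ℂ) / n)) (∑ n ∈ S \ A, P n x * k n)
  have b5 := norm_sub_le (∑ n ∈ S, P n x * k n) (∑ n ∈ A, PP f₁ f₂ f₃ n x * (k n - (cc : ℂ) / n))
  rw [← e, norm_mul, Complex.norm_real, Real.norm_of_nonneg c.le] at b4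
  have b6 := mul_le_mul_of_nonneg_left b2 c.le
  unfold Er
  linarith

theorem discFin_of_bdd (h : IsHolderTuple p₁ p₂ p₃ r) (H : BoundedAt p₁ p₂ p₃ r) :
    DiscFin p₁ p₂ p₃ r := by
  have c := cc_pos
  have k1 := UB.ker h H (a := fun (N : ℕ) f₁ f₂ f₃ x => if |x| ≤ (N + 1 : ℕ) then
      max (cc * ‖dH f₁ f₂ f₃ 0 (N + 1) x‖ - cc * Er (N + 1) f₁ f₂ f₃ x) 0 else 0)
    (fun N f y => if |y| ≤ 2 * (N + 1 : ℕ) then f y else 0) (fun _ f => f) (fun _ f => f)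
    (fun M f y => by split_ifs <;> simp) (fun _ _ _ => le_rfl) (fun _ _ _ => le_rfl) (by
      intro N f₁ f₂ f₃ x
      by_cases hx : |x| ≤ (N + 1 : ℕ)
      swap
      · exact Or.inl (if_neg hx)
      refine Or.inr ⟨3 * (N + 1), fun n hn => if_neg fun b => ?_, fun k hk => ?_⟩
      · have := abs_sub x (x - n)
        rw [sub_sub_cancel] at this
        omega
      · rw [if_pos hx, abs_of_nonneg (le_max_right _ _)]
        exact max_le (trunc_le f₁ f₂ f₃ (N + 1) hx hk) (norm_nonneg _))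
  have k2 := k1.add ((Er_bd h H).mono (g' := fun (N : ℕ) f₁ f₂ f₃ x => cc * Er (N + 1) f₁ f₂ f₃ x) cc
    fun N => ⟨N, fun _ _ _ _ => by rw [abs_mul, abs_of_pos c]⟩)
  have k3 := UB.glue h (g := fun (N : ℕ) f₁ f₂ f₃ x => cc * ‖dH f₁ f₂ f₃ 0 (N + 1) x‖)
    (fun N => N + 1) (fun N => 4 * (N + 1)) 4 (fun N => by omega) (fun N f₁ f₂ f₃ a m hm => by
      rw [if_pos hm, abs_of_nonneg (by positivity)]
      refine le_trans ?_ (le_abs_self _)
      refine le_trans (le_of_eq ?_) (sub_le_iff_le_add.1 (le_max_left _ _))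
      congr 2
      refine Finset.sum_congr rfl fun n hn => ?_
      have := abs_le.2 (Finset.mem_Icc.1 (Finset.mem_filter.1 hn).1)
      exact congrArg (· / (n : ℂ)) (PP_cut f₁ f₂ f₃ a (by omega)).symm) k2
  have k4 : UB p₁ p₂ p₃ r fun (N : ℕ) f₁ f₂ f₃ x => ‖dH f₁ f₂ f₃ 0 N x‖ :=
    k3.mono cc⁻¹ fun N => ⟨N - 1, fun f₁ f₂ f₃ x => by
      rcases N with _ | N
      · simp only [dH, Nat.cast_zero, neg_zero, Finset.Icc_self, Finset.filter_singleton, abs_zero,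
          lt_irrefl, if_false, Finset.sum_empty, norm_zero]
        positivity
      · rw [abs_mul, abs_of_pos c, inv_mul_cancel_left₀ c.ne', Nat.add_sub_cancel]⟩
  have k5 : UB p₁ p₂ p₃ r fun (z : ℕ × ℕ) f₁ f₂ f₃ x => ‖dH f₁ f₂ f₃ z.1 z.2 x‖ :=
    ((k4.mono (g' := fun (z : ℕ × ℕ) f₁ f₂ f₃ x => ‖dH f₁ f₂ f₃ 0 z.2 x‖) 1
      fun z => ⟨z.2, fun _ _ _ _ => (one_mul _).ge⟩).add
      (k4.mono (g' := fun (z : ℕ × ℕ) f₁ f₂ f₃ x => ‖dH f₁ f₂ f₃ 0 (min z.1 z.2) x‖) 1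
        fun z => ⟨min z.1 z.2, fun _ _ _ _ => (one_mul _).ge⟩)).mono 1 fun z =>
      ⟨z, fun f₁ f₂ f₃ x => by
        rw [one_mul, abs_norm]
        refine le_trans (le_trans (le_of_eq ?_) (norm_sub_le _ _)) (le_abs_self _)
        congr 1
        unfold dH
        rw [← Finset.sum_sdiff_eq_sub fun n hn => by
          simp only [Finset.mem_filter, Finset.mem_Icc, ← abs_le] at hn ⊢
          omega]
        refine Finset.sum_congr (Finset.ext fun n => ?_) fun _ _ => rfl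
        simp only [Finset.mem_sdiff, Finset.mem_filter, Finset.mem_Icc, ← abs_le]
        omega⟩
  obtain ⟨C, hC, K⟩ := k5
  exact ⟨C, hC, fun f₁ f₂ f₃ s₁ s₂ s₃ M N => (eLpNorm_norm _).ge.trans (K (M, N) f₁ f₂ f₃ s₁ s₂ s₃)⟩

end Vale.Agent.N141X
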