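import Vale.Agent.N141X.Ub

/-!
# From the transform on the line to kernels on `ℤ`
-/

open MeasureTheory Set Filter Topology
open scoped ENNReal SchwartzMap

namespace Vale.Agent.N141X

open Vale.Agent.P141 Vale.Agent.N141W Function

/-- the mass of the narrow bump -/
noncomputable def cc : ℝ := ∫ t, φ₁ t

theorem cc_pos : 0 < cc := φ₁.integral_pos

/-- admissible kernels -/
def Adm (k : ℤ → ℂ) : Prop := ∀ n : ℤ, n ≠ 0 → ‖k n - (cc : ℂ) / n‖ ≤ cc * |(n : ℝ)| ^ (-2 : ℝ)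

theorem tht_bump : ∃ L : ℝ, 0 ≤ L ∧ ∀ (f₁ f₂ f₃ : ℤ → ℂ) (F₁ F₂ F₃ : 𝓢(ℝ, ℂ)),
    (∀ (y : ℝ) (k : ℤ), |y - k| ≤ 1 / 2 → F₁ y = f₁ k * φ₁ (y - k)) →
    (∀ (y : ℝ) (k : ℤ), |y - k| ≤ 1 / 2 → F₂ y = f₂ k * φ₂ (y - k)) →
    (∀ (y : ℝ) (k : ℤ), |y - k| ≤ 1 / 2 → F₃ y = f₃ k * φ₂ (y - k)) → ∀ (R : ℕ) (x : ℤ) (s : ℝ),
    0 ≤ s → s < 1 / 16 → (∀ n : ℤ, (R : ℤ) < |n| → f₁ (x - n) = 0) →
    ‖truncTHT F₁ F₂ F₃ ((0 : ℕ) + 1 / 2) (R + 1 / 2) (x + s)‖ ≤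
      ‖THT F₁ F₂ F₃ (x + s)‖ + L * ‖PP f₁ f₂ f₃ 0 x‖ := by
  obtain ⟨K, hK⟩ := ContDiff.lipschitzWith_of_hasCompactSupport φ₁.hasCompactSupport
    (φ₁.contDiff (n := 1)) one_ne_zero
  refine ⟨K, K.2, fun f₁ f₂ f₃ F₁ F₂ F₃ h₁ h₂ h₃ R x s h0 h1 hR => ?_⟩
  set F := pr F₁ F₂ F₃ (x + s) with hF
  have hd := pr_diff F₁ F₂ F₃ (x + s)
  have hi := odd_int hd (pr_int F₁ F₂ F₃ (x + s))
  have R0 : (0 : ℝ) ≤ R := R.cast_nonneg
  have far : ∀ t : ℝ, R + 1 / 2 ≤ |t| → F t = 0 := by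
    intro t ht
    have a := Int.floor_le (x + s - t + 1 / 2)
    have b := Int.lt_floor_add_one (x + s - t + 1 / 2)
    set k := ⌊x + s - t + 1 / 2⌋
    have z : F₁ (x + s - t) = 0 := by
      rw [h₁ _ k (abs_le.2 ⟨by linarith, by linarith⟩)]
      by_cases c : 1 / 16 ≤ |x + s - t - k|
      · simp [φ₁_zero c]
      · have d := abs_lt.1 (not_le.1 c)
        have e : (R : ℝ) < |((x - k : ℤ) : ℝ)| := by
          have := abs_add_le (((x - k : ℤ) : ℝ)) (t - ((x - k : ℤ) : ℝ))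
          have g : |t - ((x - k : ℤ) : ℝ)| ≤ 1 / 8 := by
            push_cast
            exact abs_le.2 ⟨by linarith [d.2], by linarith [d.1]⟩
          rw [add_sub_cancel] at this
          linarith
        have := hR (x - k) (by exact_mod_cast e)
        rw [sub_sub_cancel] at this
        rw [this, zero_mul]
    simp only [hF, pr, z, zero_mul]
  have near : ∀ t : ℝ, |t| ≤ 1 / 2 → F t = PP f₁ f₂ f₃ 0 x * φ₁ (s - t) := by
    intro t ht
    have a := abs_le.1 ht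
    by_cases c : 1 / 16 ≤ |s - t|
    · have z : F₁ (x + s - t) = 0 := by
        rcases le_total (s - t) (1 / 2) with d | d
        · rw [h₁ _ x (abs_le.2 ⟨by linarith, by linarith⟩), add_sub_assoc, add_sub_cancel_left,
            φ₁_zero c]
          simp
        · rw [h₁ _ (x + 1) (by push_cast; exact abs_le.2 ⟨by linarith, by linarith⟩), φ₁_zero
            (by push_cast; exact le_abs.2 (Or.inr (by linarith)))]
          simp
      simp [hF, pr, z, φ₁_zero c]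
    · have d := abs_lt.1 (not_le.1 c)
      simp only [hF, pr, PP]
      rw [h₁ _ x (abs_le.2 ⟨by linarith, by linarith⟩), h₂ _ x (abs_le.2 ⟨by linarith, by linarith⟩),
        h₃ _ x (abs_le.2 ⟨by linarith, by linarith⟩), φ₂_one (abs_le.2 ⟨by linarith, by linarith⟩),
        φ₂_one (abs_le.2 ⟨by linarith, by linarith⟩), add_sub_assoc, add_sub_cancel_left]
      simp only [mul_zero, sub_zero, Complex.ofReal_one]
      ring
  have e1 : truncTHT F₁ F₂ F₃ ((0 : ℕ) + 1 / 2) (R + 1 / 2) (x + s) =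
      ∫ t in Ioi (1 / 2 : ℝ), (F t - F (-t)) / (t : ℂ) := by
    rw [Nat.cast_zero, zero_add]
    refine (trunc_odd hd.continuous (by norm_num) (by linarith)).trans
      (setIntegral_eq_of_subset_of_forall_sdiff_eq_zero measurableSet_Ioi Ioo_subset_Ioi_self
        fun t ht => ?_).symm
    have : R + 1 / 2 ≤ |t| := (not_lt.1 fun c => ht.2 ⟨ht.1, c⟩).trans (le_abs_self t)
    rw [← hF, far t this, far (-t) (by rwa [abs_neg]), sub_self, zero_div]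
  have u : Ioc (0 : ℝ) (1 / 2) ∪ Ioi (1 / 2) = Ioi 0 := Ioc_union_Ioi_eq_Ioi (by norm_num)
  have e2 : THT F₁ F₂ F₃ (x + s) = (∫ t in Ioc (0 : ℝ) (1 / 2), (F t - F (-t)) / (t : ℂ)) +
      ∫ t in Ioi (1 / 2 : ℝ), (F t - F (-t)) / (t : ℂ) := by
    rw [tht_eq, ← u]
    exact setIntegral_union Ioc_disjoint_Ioi_same measurableSet_Ioi
      (hi.mono_set (u ▸ subset_union_left)) (hi.mono_set (u ▸ subset_union_right))
  have e3 : ‖∫ t in Ioc (0 : ℝ) (1 / 2), (F t - F (-t)) / (t : ℂ)‖ ≤ K * ‖PP f₁ f₂ f₃ 0 x‖ := by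
    refine (norm_setIntegral_le_of_norm_le_const (C := 2 * (K * ‖PP f₁ f₂ f₃ 0 x‖))
      measure_Ioc_lt_top fun t ht => ?_).trans (le_of_eq ?_)
    · have a : |t| ≤ 1 / 2 := by rw [abs_of_pos ht.1]; exact ht.2
      have b := hK.dist_le_mul (s - t) (s - -t)
      rw [Real.dist_eq, Real.dist_eq, show s - t - (s - -t) = -(2 * t) by ring, abs_neg,
        abs_of_pos (by linarith [ht.1] : 0 < 2 * t)] at b
      rw [near t a, near (-t) (by rwa [abs_neg]), ← mul_sub, ← Complex.ofReal_sub, norm_div, norm_mul,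
        Complex.norm_real, Complex.norm_real, Real.norm_of_nonneg ht.1.le, div_le_iff₀ ht.1]
      exact (mul_le_mul_of_nonneg_left b (norm_nonneg _)).trans (le_of_eq (by ring))
    · rw [Real.volume_real_Ioc_of_le (by norm_num)]
      ring
  rw [e1, eq_sub_of_add_eq' e2.symm]
  exact (norm_sub_le _ _).trans (add_le_add le_rfl e3)

variable {p₁ p₂ p₃ r : ℝ≥0∞} {ι : Type}

/-- what is below all admissible kernel sums is bounded -/
theorem UB.ker (h : IsHolderTuple p₁ p₂ p₃ r) (H : BoundedAt p₁ p₂ p₃ r) {a : ι → Op}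
    (u₁ u₂ u₃ : ι → (ℤ → ℂ) → ℤ → ℂ) (b₁ : ∀ i f y, ‖u₁ i f y‖ ≤ ‖f y‖)
    (b₂ : ∀ i f y, ‖u₂ i f y‖ ≤ ‖f y‖) (b₃ : ∀ i f y, ‖u₃ i f y‖ ≤ ‖f y‖)
    (ha : ∀ i f₁ f₂ f₃ x, a i f₁ f₂ f₃ x = 0 ∨ ∃ R : ℕ,
      (∀ n : ℤ, (R : ℤ) < |n| → u₁ i f₁ (x - n) = 0) ∧ ∀ k, Adm k → |a i f₁ f₂ f₃ x| ≤
        ‖∑ n ∈ Finset.Icc (-(R : ℤ)) R with ((0 : ℕ) : ℤ) < |n|,
          PP (u₁ i f₁) (u₂ i f₂) (u₃ i f₃) n x * k n‖) : UB p₁ p₂ p₃ r a := by
  obtain ⟨C, hC, H⟩ := H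
  obtain ⟨L, L0, hL⟩ := tht_bump
  have rt := h.r_lt_top.ne
  set d : ℝ≥0∞ := ENNReal.ofReal (1 / 16) ^ (1 / r).toReal with hd
  have d0 : d ≠ 0 := (ENNReal.rpow_pos (by norm_num) ENNReal.ofReal_ne_top).ne'
  have dt : d ≠ ∞ := ENNReal.rpow_ne_top_of_nonneg ENNReal.toReal_nonneg ENNReal.ofReal_ne_top
  refine ⟨d⁻¹ * (ENNReal.LpAddConst r * (C + ENNReal.ofReal L)), ENNReal.mul_lt_top
    (ENNReal.inv_lt_top.2 d0.bot_lt) (ENNReal.mul_lt_top (ENNReal.LpAddConst_lt_top r)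
      (ENNReal.add_lt_top.2 ⟨hC, ENNReal.ofReal_lt_top⟩)), fun i f₁ f₂ f₃ s₁ s₂ s₃ => ?_⟩
  have fin : ∀ {g f : ℤ → ℂ}, (∀ y, ‖g y‖ ≤ ‖f y‖) → (support f).Finite → (support g).Finite :=
    fun b s => s.subset fun y hy h0 => hy (norm_le_zero_iff.1 ((b y).trans (by simp [h0])))
  obtain ⟨F₁, e₁, n₁⟩ := exists_ext φ₁ (by norm_num [φ₁]) (fin (b₁ i f₁) s₁)
  obtain ⟨F₂, e₂, n₂⟩ := exists_ext φ₂ (by norm_num [φ₂]) (fin (b₂ i f₂) s₂)
  obtain ⟨F₃, e₃, n₃⟩ := exists_ext φ₂ (by norm_num [φ₂]) (fin (b₃ i f₃) s₃)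
  set B := eLpNorm f₁ p₁ Measure.count * eLpNorm f₂ p₂ Measure.count * eLpNorm f₃ p₃ Measure.count
    with hB
  have m₁ := eLpNorm_mono (μ := Measure.count) (p := p₁) (b₁ i f₁)
  have m₂ := eLpNorm_mono (μ := Measure.count) (p := p₂) (b₂ i f₂)
  have m₃ := eLpNorm_mono (μ := Measure.count) (p := p₃) (b₃ i f₃)
  set T := THT F₁ F₂ F₃ with hT
  have hTB : eLpNorm T r volume ≤ C * B := by
    refine (H F₁ F₂ F₃).trans ?_
    rw [hB, ← mul_assoc, ← mul_assoc]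
    gcongr
    exacts [(n₁ _).trans m₁, (n₂ _).trans m₂, (n₃ _).trans m₃]
  set ν : Measure ℝ := volume.restrict {y | Int.fract y < 1 / 16} with hν
  have mp := floor_mp (show (1 / 16 : ℝ) ≤ 1 by norm_num)
  set P := PP (u₁ i f₁) (u₂ i f₂) (u₃ i f₃) 0 with hP
  have hPB : eLpNorm (fun y : ℝ => L * ‖P ⌊y⌋‖) r ν ≤ ENNReal.ofReal L * B := by
    refine (eLpNorm_le_mul_eLpNorm_of_ae_le_mul (g := P ∘ Int.floor) (ae_of_all _ fun y =>
      (Real.norm_of_nonneg (by positivity)).le) r).trans (mul_le_mul_right ?_ _)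
    rw [eLpNorm_comp_measurePreserving (measurable_of_countable _).aestronglyMeasurable mp]
    refine (eLpNorm_mono_measure _ (Measure.le_iff'.2 fun s => ?_)).trans
      ((PP_norm h _ _ _ 0).trans (mul_le_mul' (mul_le_mul' m₁ m₂) m₃))
    rw [Measure.smul_apply, smul_eq_mul]
    exact mul_le_of_le_one_left zero_le (ENNReal.ofReal_le_one.2 (by norm_num))
  have main : eLpNorm (a i f₁ f₂ f₃ ∘ Int.floor) r ν ≤
      eLpNorm ((fun y => ‖T y‖) + fun y : ℝ => L * ‖P ⌊y⌋‖) r ν := by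
    refine eLpNorm_mono_ae ?_
    filter_upwards [ae_restrict_mem (measurableSet_lt measurable_fract measurable_const)] with y hy
    rcases ha i f₁ f₂ f₃ ⌊y⌋ with z | ⟨R, hR, k⟩
    · rw [comp_apply, z, norm_zero]
      exact norm_nonneg _
    have e := bump_eq e₁ e₂ e₃ 0 R ⌊y⌋ (Int.fract_nonneg y) hy
    have e' := hL _ _ _ _ _ _ e₁ e₂ e₃ R ⌊y⌋ _ (Int.fract_nonneg y) hy hR
    rw [e, Int.floor_add_fract] at e'
    exact ((k _ fun n hn => (ker_one (Int.fract_nonneg y) hy hn).2).trans e').trans (le_abs_self _)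
  rw [eLpNorm_comp_measurePreserving (measurable_of_countable _).aestronglyMeasurable mp,
    eLpNorm_smul_measure_of_ne_top rt, smul_eq_mul] at main
  have m2 := main.trans ((eLpNorm_add_le' (tht_meas F₁ F₂ F₃).norm.aestronglyMeasurable
    (((measurable_of_countable P).comp Int.measurable_floor).norm.const_mul
      L).aestronglyMeasurable r).trans (mul_le_mul_right (add_le_add ((eLpNorm_norm _).le.trans
        ((eLpNorm_mono_measure _ Measure.restrict_le_self).trans hTB)) hPB) _))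
  calc eLpNorm (a i f₁ f₂ f₃) r Measure.count
      = d⁻¹ * (d * eLpNorm (a i f₁ f₂ f₃) r Measure.count) := by
        rw [← mul_assoc, ENNReal.inv_mul_cancel d0 dt, one_mul]
    _ ≤ _ := mul_le_mul_right m2 _
    _ = _ := by rw [hB]; ring

end Vale.Agent.N141X
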