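import Vale.Agent.N141X.Eqv
import Vale.Agent.N141X.Cvx

/-!
# P141: the set of tuples is the same in the four models and convex, for all exponents
-/

open MeasureTheory
open scoped ENNReal SchwartzMap

namespace Vale.Agent.N141X

open Vale.Agent.P141 Vale.Agent.N141W

theorem bdd_of_discFin {p₁ p₂ p₃ r : ℝ≥0∞} (h : IsHolderTuple p₁ p₂ p₃ r)
    (H : DiscFin p₁ p₂ p₃ r) : BoundedAt p₁ p₂ p₃ r :=
  bdd_of_trunc (trunc_of_erg (erg_of_discFin h H))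

theorem models {p₁ p₂ p₃ r : ℝ≥0∞} (h : IsHolderTuple p₁ p₂ p₃ r) :
    (BoundedAt p₁ p₂ p₃ r ↔ TruncBounded p₁ p₂ p₃ r) ∧
    (BoundedAt p₁ p₂ p₃ r ↔ DiscBounded p₁ p₂ p₃ r) ∧
    (BoundedAt p₁ p₂ p₃ r ↔ ErgBounded p₁ p₂ p₃ r) :=
  ⟨⟨fun k => trunc_of_erg (erg_of_discFin h (discFin_of_bdd h k)), bdd_of_trunc⟩,
    ⟨fun k => disc_of_erg (erg_of_discFin h (discFin_of_bdd h k)),
      fun k => bdd_of_discFin h (discFin_of_disc k)⟩,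
    fun k => erg_of_discFin h (discFin_of_bdd h k), fun k => bdd_of_trunc (trunc_of_erg k)⟩

theorem convex_all : Convex ℝ {u : ℝ × ℝ × ℝ | ∃ p₁ p₂ p₃ r : ℝ≥0∞, IsHolderTuple p₁ p₂ p₃ r ∧
    BoundedAt p₁ p₂ p₃ r ∧ u = ((p₁⁻¹).toReal, (p₂⁻¹).toReal, (p₃⁻¹).toReal)} := by
  rw [convex_iff_forall_pos]
  rintro _ ⟨p₁, p₂, p₃, r, h, P, rfl⟩ _ ⟨q₁, q₂, q₃, s, k, Q, rfl⟩ a θ ha h0 e
  obtain rfl : a = 1 - θ := by linarith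
  have ir := ENNReal.inv_ne_top.2 h.r_pos.ne'
  have is := ENNReal.inv_ne_top.2 k.r_pos.ne'
  have e₀ : s⁻¹ + r⁻¹ = ((r⁻¹ + s⁻¹)⁻¹)⁻¹ := by rw [inv_inv, add_comm]
  have d₀ : r⁻¹ + s⁻¹ = ((r⁻¹ + s⁻¹)⁻¹)⁻¹ := by rw [inv_inv]
  let m : ℝ≥0∞ → ℝ≥0∞ → ℝ≥0∞ := fun p q =>
    (ENNReal.ofReal ((1 - θ) * (p⁻¹).toReal + θ * (q⁻¹).toReal))⁻¹
  have nn : ∀ p q : ℝ≥0∞, 0 ≤ (1 - θ) * (p⁻¹).toReal + θ * (q⁻¹).toReal := fun p q => by positivity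
  have em : ∀ p q, ((m p q)⁻¹).toReal = (1 - θ) * (p⁻¹).toReal + θ * (q⁻¹).toReal := fun p q => by
    rw [inv_inv, ENNReal.toReal_ofReal (nn p q)]
  have m0 : ∀ p q, m p q ≠ 0 := fun p q => ENNReal.inv_ne_zero.2 ENNReal.ofReal_ne_top
  have m1 : ∀ p q, 1 < p → 1 < q → 1 < m p q := fun p q hp hq => by
    have a' := inv_real_lt hp one_ne_zero
    have b' := inv_real_lt hq one_ne_zero
    rw [inv_one, ENNReal.toReal_one] at a' b'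
    rw [ENNReal.one_lt_inv, ENNReal.ofReal_lt_one]
    nlinarith
  have hr := holder_real h
  have hs := holder_real k
  have rp : 0 < (r⁻¹).toReal := by
    rw [ENNReal.toReal_inv]
    exact inv_pos.2 (r_pos h)
  have hM : IsHolderTuple (m p₁ q₁) (m p₂ q₂) (m p₃ q₃) (m r s) := by
    refine ⟨m1 _ _ h.one_lt_p₁ k.one_lt_p₁, m1 _ _ h.one_lt_p₂ k.one_lt_p₂,
      m1 _ _ h.one_lt_p₃ k.one_lt_p₃, (m0 _ _).bot_lt, ?_, ?_⟩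
    · rw [ENNReal.inv_lt_top, ENNReal.ofReal_pos]
      positivity
    · simp only [m, inv_inv]
      rw [← ENNReal.ofReal_add (nn _ _) (nn _ _),
        ← ENNReal.ofReal_add (add_nonneg (nn _ _) (nn _ _)) (nn _ _), hr, hs]
      congr 1
      ring
  have eM : (m s r)⁻¹ + (m r s)⁻¹ = ((r⁻¹ + s⁻¹)⁻¹)⁻¹ := by
    simp only [m, inv_inv]
    rw [← ENNReal.ofReal_add (nn _ _) (nn _ _), ← ENNReal.ofReal_toReal
      (ENNReal.add_ne_top.2 ⟨ir, is⟩), ENNReal.toReal_add ir is]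
    congr 1
    ring
  refine ⟨_, _, _, _, hM, bdd_of_discFin hM (disc_of_formR eM (m0 _ _) (m0 _ _) hM.r_lt_top.ne
    (FormR.interp h0 (by linarith) (ENNReal.inv_ne_zero.2 (ENNReal.add_ne_top.2 ⟨ir, is⟩))
      (ENNReal.inv_ne_top.2 fun z => ENNReal.inv_ne_zero.2 h.r_lt_top.ne (add_eq_zero.1 z).1)
      ⟨k.r_pos.ne', h.ne₁, h.ne₂, h.ne₃⟩ ⟨h.r_pos.ne', k.ne₁, k.ne₂, k.ne₃⟩
      ⟨m0 _ _, m0 _ _, m0 _ _, m0 _ _⟩ (em _ _) (em _ _) (em _ _) (em _ _)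
      (formR_of_disc e₀ (discFin_of_bdd h P)) (formR_of_disc d₀ (discFin_of_bdd k Q)))), ?_⟩
  simp only [em, Prod.smul_mk, Prod.mk_add_mk, smul_eq_mul]

end Vale.Agent.N141X
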