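import Vale.Agent.N141W.Main

/-!
# Families of operators on sequences that are bounded with one constant
-/

open MeasureTheory Set Filter Topology
open scoped ENNReal SchwartzMap

namespace Vale.Agent.N141X

open Vale.Agent.P141 Vale.Agent.N141W Function

/-- operators on triples of sequences -/
abbrev Op : Type := (ℤ → ℂ) → (ℤ → ℂ) → (ℤ → ℂ) → ℤ → ℝ

/-- one constant for all operators of the family -/
def UB (p₁ p₂ p₃ r : ℝ≥0∞) {ι : Type} (g : ι → Op) : Prop :=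
  ∃ C : ℝ≥0∞, C < ∞ ∧ ∀ (i : ι) (f₁ f₂ f₃ : ℤ → ℂ), (support f₁).Finite → (support f₂).Finite →
    (support f₃).Finite → eLpNorm (g i f₁ f₂ f₃) r Measure.count ≤
      C * eLpNorm f₁ p₁ Measure.count * eLpNorm f₂ p₂ Measure.count * eLpNorm f₃ p₃ Measure.count

/-- the product -/
noncomputable def PP (f₁ f₂ f₃ : ℤ → ℂ) (n x : ℤ) : ℂ := f₁ (x - n) * f₂ (x - 2 * n) * f₃ (x - 3 * n)

variable {p₁ p₂ p₃ r : ℝ≥0∞} {ι κ : Type}

theorem asm {E : Type} [NormedAddCommGroup E] [MeasurableSpace E] [BorelSpace E]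
    [SecondCountableTopology E] (f : ℤ → E) : AEStronglyMeasurable f Measure.count :=
  (measurable_of_countable f).aestronglyMeasurable

theorem UB.mono {g : ι → Op} {g' : κ → Op} (H : UB p₁ p₂ p₃ r g) (K : ℝ)
    (h : ∀ j, ∃ i, ∀ f₁ f₂ f₃ x, |g' j f₁ f₂ f₃ x| ≤ K * |g i f₁ f₂ f₃ x|) : UB p₁ p₂ p₃ r g' := by
  obtain ⟨C, hC, H⟩ := H
  refine ⟨ENNReal.ofReal K * C, ENNReal.mul_lt_top ENNReal.ofReal_lt_top hC,
    fun j f₁ f₂ f₃ s₁ s₂ s₃ => ?_⟩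
  obtain ⟨i, hi⟩ := h j
  exact ((eLpNorm_le_mul_eLpNorm_of_ae_le_mul (ae_of_all _ (hi f₁ f₂ f₃)) r).trans
    (mul_le_mul_right (H i f₁ f₂ f₃ s₁ s₂ s₃) _)).trans (le_of_eq (by ring))

theorem UB.add {g g' : ι → Op} (H : UB p₁ p₂ p₃ r g) (H' : UB p₁ p₂ p₃ r g') :
    UB p₁ p₂ p₃ r fun i f₁ f₂ f₃ x => g i f₁ f₂ f₃ x + g' i f₁ f₂ f₃ x := by
  obtain ⟨C, hC, H⟩ := H
  obtain ⟨D, hD, H'⟩ := H'
  refine ⟨ENNReal.LpAddConst r * (C + D), ENNReal.mul_lt_top (ENNReal.LpAddConst_lt_top r)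
    (ENNReal.add_lt_top.2 ⟨hC, hD⟩), fun i f₁ f₂ f₃ s₁ s₂ s₃ => ?_⟩
  exact ((eLpNorm_add_le' (asm _) (asm _) r).trans (mul_le_mul_right (add_le_add
    (H i f₁ f₂ f₃ s₁ s₂ s₃) (H' i f₁ f₂ f₃ s₁ s₂ s₃)) _)).trans (le_of_eq (by ring))

theorem shift_norm (f : ℤ → ℂ) (p : ℝ≥0∞) (a : ℤ) :
    eLpNorm (fun k => f (k - a)) p Measure.count = eLpNorm f p Measure.count :=
  eLpNorm_comp_measurePreserving (asm f) (measurePreserving_sub_right _ a)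

theorem PP_norm (h : IsHolderTuple p₁ p₂ p₃ r) (f₁ f₂ f₃ : ℤ → ℂ) (n : ℤ) :
    eLpNorm (PP f₁ f₂ f₃ n) r Measure.count ≤
      eLpNorm f₁ p₁ Measure.count * eLpNorm f₂ p₂ Measure.count * eLpNorm f₃ p₃ Measure.count :=
  (holder3 h.holder (asm _) (asm _) (asm _)).trans
    (le_of_eq (by rw [shift_norm, shift_norm, shift_norm]))

theorem UB.term (h : IsHolderTuple p₁ p₂ p₃ r) :
    UB p₁ p₂ p₃ r fun (n : ℤ) f₁ f₂ f₃ x => ‖PP f₁ f₂ f₃ n x‖ :=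
  ⟨1, ENNReal.one_lt_top, fun n f₁ f₂ f₃ _ _ _ => by
    rw [eLpNorm_norm, one_mul]
    exact PP_norm h f₁ f₂ f₃ n⟩

theorem UB.geom (h : IsHolderTuple p₁ p₂ p₃ r) {g : ℕ → Op} (H : UB p₁ p₂ p₃ r g) :
    UB p₁ p₂ p₃ r fun (J : ℕ) f₁ f₂ f₃ x =>
      ∑ j ∈ Finset.range J, (1 / 2 : ℝ) ^ j * g j f₁ f₂ f₃ x := by
  obtain ⟨C, hC, H⟩ := H
  have r0 := h.r_pos.ne'
  have rt := h.r_lt_top.ne
  set ρ : ℝ := min r.toReal 1 with hρ
  have ρ0 : 0 < ρ := lt_min (r_pos h) one_pos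
  set q : ℝ≥0∞ := ENNReal.ofReal (1 / 2) ^ ρ with hq
  have q1 : q < 1 := ENNReal.rpow_lt_one (ENNReal.ofReal_lt_one.2 (by norm_num)) ρ0
  refine ⟨((1 - q)⁻¹) ^ ρ⁻¹ * C, ENNReal.mul_lt_top (ENNReal.rpow_lt_top_of_nonneg (by positivity)
    (ENNReal.inv_ne_top.2 (tsub_pos_of_lt q1).ne')) hC, fun J f₁ f₂ f₃ s₁ s₂ s₃ => ?_⟩
  set B := C * eLpNorm f₁ p₁ Measure.count * eLpNorm f₂ p₂ Measure.count *
    eLpNorm f₃ p₃ Measure.count with hB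
  have k := sum_rho (μ := Measure.count) r0 rt
    (f := fun j => (1 / 2 : ℝ) ^ j • g j f₁ f₂ f₃) (fun _ => asm _) (Finset.range J)
  have k2 : ∀ j, eLpNorm ((1 / 2 : ℝ) ^ j • g j f₁ f₂ f₃) r Measure.count ^ ρ ≤ q ^ j * B ^ ρ := by
    intro j
    rw [eLpNorm_const_smul, ENNReal.mul_rpow_of_nonneg _ _ ρ0.le,
      Real.enorm_eq_ofReal (by positivity), ENNReal.ofReal_pow (by norm_num), hq,
      ← ENNReal.rpow_natCast, ← ENNReal.rpow_natCast, ← ENNReal.rpow_mul, ← ENNReal.rpow_mul,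
      mul_comm ρ]
    exact mul_le_mul_right (ENNReal.rpow_le_rpow (H j f₁ f₂ f₃ s₁ s₂ s₃) ρ0.le) _
  have k3 := k.trans ((Finset.sum_le_sum fun j _ => k2 j).trans ((Finset.sum_mul _ _ _).ge.trans
    (mul_le_mul_left ((ENNReal.sum_le_tsum _).trans (ENNReal.tsum_geometric q).le) _)))
  have e : (fun x => ∑ j ∈ Finset.range J, (1 / 2 : ℝ) ^ j * g j f₁ f₂ f₃ x) =
      ∑ j ∈ Finset.range J, (1 / 2 : ℝ) ^ j • g j f₁ f₂ f₃ := by
    funext x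
    simp only [Finset.sum_apply, Pi.smul_apply, smul_eq_mul]
  simp only [e]
  rw [← ENNReal.rpow_le_rpow_iff ρ0]
  refine k3.trans (le_of_eq ?_)
  nth_rewrite 1 [← ENNReal.rpow_inv_rpow ρ0.ne' (1 - q)⁻¹]
  rw [← ENNReal.mul_rpow_of_nonneg _ _ ρ0.le, hB]
  congr 1
  ring

/-- a window of a sequence -/
noncomputable def cut (f : ℤ → ℂ) (a : ℤ) (L : ℕ) (m : ℤ) : ℂ := orb (Equiv.subRight 1) f L (a, m)

theorem cut_eq (f : ℤ → ℂ) (a : ℤ) {L : ℕ} {m : ℤ} (h : |m| ≤ L) : cut f a L m = f (a + m) := by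
  rw [cut, orb, if_pos (Finset.mem_Icc.2 (abs_le.1 h)), subRight_zpow]
  simp

theorem cut_fin (f : ℤ → ℂ) (a : ℤ) (L : ℕ) : (support (cut f a L)).Finite :=
  (Finset.Icc (-(L : ℤ)) L).finite_toSet.subset fun m hm => by
    by_contra hc
    exact hm (if_neg hc)

/-- from windows to all of `ℤ` -/
theorem UB.glue (h : IsHolderTuple p₁ p₂ p₃ r) {g g' : ι → Op} (K L : ι → ℕ) (A : ℕ)
    (hA : ∀ i, 2 * L i + 1 ≤ (2 * K i + 1) * A)
    (loc : ∀ i f₁ f₂ f₃ (a m : ℤ), |m| ≤ K i → |g i f₁ f₂ f₃ (a + m)| ≤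
      |g' i (cut f₁ a (L i)) (cut f₂ a (L i)) (cut f₃ a (L i)) m|)
    (H : UB p₁ p₂ p₃ r g') : UB p₁ p₂ p₃ r g := by
  obtain ⟨C, hC, H⟩ := H
  refine ⟨C * (A : ℝ≥0∞) ^ (r⁻¹).toReal, ENNReal.mul_lt_top hC
    (ENNReal.rpow_lt_top_of_nonneg ENNReal.toReal_nonneg (by simp)), fun i f₁ f₂ f₃ _ _ _ => ?_⟩
  have hS : MeasurePreserving (Equiv.subRight (1 : ℤ)) Measure.count Measure.count :=
    measurePreserving_sub_right Measure.count 1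
  have m : ∀ {α : Type} [MeasurableSpace α] (f : ℤ → α), Measurable f := measurable_of_countable
  have hS' := m (Equiv.subRight (1 : ℤ)).symm
  set G : ℤ → ℂ := fun x => (g i f₁ f₂ f₃ x : ℝ) with hG
  have key := fub Measure.count Measure.count (C := C) h (orb_meas hS hS' (m G) (K i))
    (orb_meas hS hS' (m f₁) (L i)) (orb_meas hS hS' (m f₂) (L i)) (orb_meas hS hS' (m f₃) (L i))
    fun x => by
      refine le_trans (eLpNorm_mono fun k => ?_)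
        (H i _ _ _ (cut_fin f₁ x _) (cut_fin f₂ x _) (cut_fin f₃ x _))
      by_cases hk : |k| ≤ K i
      · have := cut_eq G x hk
        rw [cut] at this
        rw [this, hG, Complex.norm_real]
        exact loc i f₁ f₂ f₃ x k hk
      · rw [orb, if_neg fun c => hk (abs_le.2 (Finset.mem_Icc.1 c)), norm_zero]
        exact norm_nonneg _
  rw [orb_eq hS hS' (m G) _ h.r_pos.ne' h.r_lt_top.ne] at key
  have k2 := key.trans (mul_le_mul' (mul_le_mul' (mul_le_mul' le_rfl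
    (orb_le hS hS' (m f₁) _ h.ne₁)) (orb_le hS hS' (m f₂) _ h.ne₂)) (orb_le hS hS' (m f₃) _ h.ne₃))
  set V : ℝ≥0∞ := ((2 * L i + 1 : ℕ) : ℝ≥0∞) with hV
  set W : ℝ≥0∞ := ((2 * K i + 1 : ℕ) : ℝ≥0∞) with hW
  have l1 : V ^ (p₁⁻¹).toReal * V ^ (p₂⁻¹).toReal * V ^ (p₃⁻¹).toReal ≤
      W ^ (r⁻¹).toReal * (A : ℝ≥0∞) ^ (r⁻¹).toReal := by
    rw [← ENNReal.rpow_add_of_nonneg _ _ ENNReal.toReal_nonneg ENNReal.toReal_nonneg,
      ← ENNReal.rpow_add_of_nonneg _ _ (by positivity) ENNReal.toReal_nonneg, ← holder_real h,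
      ← ENNReal.mul_rpow_of_nonneg _ _ ENNReal.toReal_nonneg]
    refine ENNReal.rpow_le_rpow ?_ ENNReal.toReal_nonneg
    rw [hV, hW]
    exact_mod_cast hA i
  have n0 : W ^ (r⁻¹).toReal ≠ 0 := by
    rw [hW]
    exact (ENNReal.rpow_pos (by positivity) (ENNReal.natCast_ne_top _)).ne'
  have n1 : W ^ (r⁻¹).toReal ≠ ∞ :=
    ENNReal.rpow_ne_top_of_nonneg ENNReal.toReal_nonneg (ENNReal.natCast_ne_top _)
  refine le_trans (eLpNorm_mono (g := G) fun x => (Complex.norm_real _).ge)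
    ((ENNReal.mul_le_mul_iff_right n0 n1).1 (k2.trans ?_))
  calc _ = (V ^ (p₁⁻¹).toReal * V ^ (p₂⁻¹).toReal * V ^ (p₃⁻¹).toReal) *
        (C * eLpNorm f₁ p₁ Measure.count * eLpNorm f₂ p₂ Measure.count *
          eLpNorm f₃ p₃ Measure.count) := by ring
    _ ≤ _ := mul_le_mul_left l1 _
    _ = _ := by ring

end Vale.Agent.N141X
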